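import Mathlib

/-!
# P038: reduction of the second neighbourhood conjecture to prime oriented graphs
-/

namespace Vale.Agent.P038

/-- An oriented graph: no loops, no pair of opposite arcs. -/
structure OGraph (V : Type) where
  A : V → V → Prop
  asymm : ∀ u v, A u v → ¬ A v u

variable {V : Type}

/-- The out-neighbourhood. -/
def OGraph.N1 (D : OGraph V) (v : V) : Set V := {u | D.A v u}

/-- The second out-neighbourhood. -/
def OGraph.N2 (D : OGraph V) (v : V) : Set V :=
  {w | w ≠ v ∧ ¬ D.A v w ∧ ∃ u, D.A v u ∧ D.A u w}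

/-- Some vertex `v` has `lam * |N1 v| ≤ |N2 v|`. -/
def OGraph.Good (lam : ℝ) (D : OGraph V) : Prop :=
  ∃ v, lam * ((D.N1 v).ncard : ℝ) ≤ ((D.N2 v).ncard : ℝ)

/-- A module (homogeneous set): no vertex outside distinguishes two vertices inside. -/
def OGraph.IsModule (D : OGraph V) (M : Set V) : Prop :=
  ∀ x, x ∉ M → ∀ y ∈ M, ∀ z ∈ M, (D.A x y ↔ D.A x z) ∧ (D.A y x ↔ D.A z x)

/-- Strongly connected, and every module other than the whole vertex set is an independent set. -/
def OGraph.Reduced (D : OGraph V) : Prop :=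
  (∀ u v, Relation.ReflTransGen D.A u v) ∧
    ∀ M : Set V, D.IsModule M → M ≠ Set.univ → ∀ x ∈ M, ∀ y ∈ M, ¬ D.A x y

/-- The induced subgraph. -/
private def ind (D : OGraph V) (S : Set V) : OGraph S where
  A x y := D.A x y
  asymm x y h := D.asymm x y h

/-- The arcs inside `M` deleted. -/
private def del (D : OGraph V) (M : Set V) : OGraph V where
  A x y := D.A x y ∧ ¬ (x ∈ M ∧ y ∈ M)
  asymm x y h h' := D.asymm x y h.1 h'.1

private noncomputable def sz (D : OGraph V) : ℕ := Nat.card V + {p : V × V | D.A p.1 p.2}.ncard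

private lemma sz_ind [Finite V] (D : OGraph V) {S : Set V} (hS : S ≠ Set.univ) :
    sz (ind D S) < sz D := by
  unfold sz
  have h1 : Nat.card S < Nat.card V := by
    rw [Nat.card_coe_set_eq, ← Set.ncard_univ V]
    exact Set.ncard_lt_ncard (Set.ssubset_univ_iff.2 hS)
  have h2 : {p : S × S | (ind D S).A p.1 p.2}.ncard ≤ {p : V × V | D.A p.1 p.2}.ncard := by
    refine Set.ncard_le_ncard_of_injOn (fun p => ((p.1 : V), (p.2 : V))) ?_ ?_
    · intro p hp
      exact hp
    · rintro ⟨a, b⟩ _ ⟨c, d⟩ _ h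
      simp only [Prod.mk.injEq] at h
      exact Prod.ext (Subtype.ext h.1) (Subtype.ext h.2)
  omega

private lemma sz_del [Finite V] (D : OGraph V) {M : Set V} {x y : V} (hx : x ∈ M) (hy : y ∈ M)
    (hxy : D.A x y) : sz (del D M) < sz D := by
  unfold sz
  have h2 : {p : V × V | (del D M).A p.1 p.2}.ncard < {p : V × V | D.A p.1 p.2}.ncard := by
    refine Set.ncard_lt_ncard ?_ (Set.toFinite _)
    refine ⟨fun p hp => hp.1, fun h => ?_⟩
    have h3 : ((x, y) : V × V) ∈ {p : V × V | (del D M).A p.1 p.2} := h hxy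
    exact h3.2 ⟨hx, hy⟩
  omega

private lemma good_closed [Finite V] {lam : ℝ} (hlam : 0 ≤ lam) (D : OGraph V) {S : Set V}
    (hS : ∀ u ∈ S, ∀ v, D.A u v → v ∈ S) (h : (ind D S).Good lam) : D.Good lam := by
  obtain ⟨v, hv⟩ := h
  refine ⟨v, ?_⟩
  have h1 : D.N1 v ⊆ Subtype.val '' (ind D S).N1 v := by
    intro u hu
    exact ⟨⟨u, hS v v.2 u hu⟩, hu, rfl⟩
  have h2 : Subtype.val '' (ind D S).N2 v ⊆ D.N2 v := by
    rintro _ ⟨w, ⟨hw1, hw2, u, hu1, hu2⟩, rfl⟩
    exact ⟨fun h => hw1 (Subtype.ext h), hw2, u, hu1, hu2⟩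
  have h3 := Set.ncard_le_ncard h1 (Set.toFinite _)
  have h4 := Set.ncard_le_ncard h2 (Set.toFinite _)
  rw [Set.ncard_image_of_injective _ Subtype.val_injective] at h3 h4
  have h3' : ((D.N1 v).ncard : ℝ) ≤ (((ind D S).N1 v).ncard : ℝ) := by exact_mod_cast h3
  have h4' : (((ind D S).N2 v).ncard : ℝ) ≤ ((D.N2 v).ncard : ℝ) := by exact_mod_cast h4
  exact (mul_le_mul_of_nonneg_left h3' hlam).trans (hv.trans h4')

private lemma good_module [Finite V] {lam : ℝ} (hlam : 0 ≤ lam) (D : OGraph V) {M : Set V}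
    (hM : D.IsModule M) (h : (ind D M).Good lam) (h' : (del D M).Good lam) : D.Good lam := by
  obtain ⟨z, hz⟩ := h'
  by_cases hzM : z ∈ M
  · obtain ⟨v, hv⟩ := h
    refine ⟨v, ?_⟩
    have h1 : D.N1 v ⊆ Subtype.val '' (ind D M).N1 v ∪ (del D M).N1 z := by
      intro u hu
      by_cases huM : u ∈ M
      · exact Or.inl ⟨⟨u, huM⟩, hu, rfl⟩
      · exact Or.inr ⟨((hM u huM v v.2 z hzM).2).1 hu, fun h => huM h.2⟩
    have hout : ∀ w ∈ (del D M).N2 z, w ∉ M := by
      rintro w ⟨_, _, u, hu1, hu2⟩ hwM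
      have huM : u ∉ M := fun h => hu1.2 ⟨hzM, h⟩
      exact D.asymm z u hu1.1 (((hM u huM w hwM z hzM).1).1 hu2.1)
    have h2 : Subtype.val '' (ind D M).N2 v ∪ (del D M).N2 z ⊆ D.N2 v := by
      rintro w (⟨w, ⟨hw1, hw2, u, hu1, hu2⟩, rfl⟩ | hw)
      · exact ⟨fun h => hw1 (Subtype.ext h), hw2, u, hu1, hu2⟩
      · have hwM := hout w hw
        obtain ⟨_, hw2, u, hu1, hu2⟩ := hw
        have huM : u ∉ M := fun h => hu1.2 ⟨hzM, h⟩
        refine ⟨fun h => hwM (h ▸ v.2), fun h => hw2 ⟨((hM w hwM v v.2 z hzM).2).1 h,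
          fun h => hwM h.2⟩, u, ((hM u huM v v.2 z hzM).2).2 hu1.1, hu2.1⟩
    have hd : Disjoint (Subtype.val '' (ind D M).N2 v) ((del D M).N2 z) := by
      rw [Set.disjoint_left]
      rintro _ ⟨w, _, rfl⟩ hw
      exact hout w hw w.2
    have h3 := (Set.ncard_le_ncard h1 (Set.toFinite _)).trans (Set.ncard_union_le _ _)
    have h4 := Set.ncard_le_ncard h2 (Set.toFinite _)
    rw [Set.ncard_union_eq hd (Set.toFinite _) (Set.toFinite _),
      Set.ncard_image_of_injective _ Subtype.val_injective] at h4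
    rw [Set.ncard_image_of_injective _ Subtype.val_injective] at h3
    have h3' : ((D.N1 v).ncard : ℝ) ≤
        (((ind D M).N1 v).ncard : ℝ) + (((del D M).N1 z).ncard : ℝ) := by exact_mod_cast h3
    have h4' : (((ind D M).N2 v).ncard : ℝ) + (((del D M).N2 z).ncard : ℝ) ≤
        ((D.N2 v).ncard : ℝ) := by exact_mod_cast h4
    have h5 := mul_le_mul_of_nonneg_left h3' hlam
    linarith
  · refine ⟨z, ?_⟩
    have h1 : D.N1 z ⊆ (del D M).N1 z := fun u hu => ⟨hu, fun h => hzM h.1⟩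
    have h2 : (del D M).N2 z ⊆ D.N2 z := by
      rintro w ⟨hw1, hw2, u, hu1, hu2⟩
      exact ⟨hw1, fun h => hw2 ⟨h, fun h => hzM h.1⟩, u, hu1.1, hu2.1⟩
    have h3 := Set.ncard_le_ncard h1 (Set.toFinite _)
    have h4 := Set.ncard_le_ncard h2 (Set.toFinite _)
    have h3' : ((D.N1 z).ncard : ℝ) ≤ (((del D M).N1 z).ncard : ℝ) := by exact_mod_cast h3
    have h4' : (((del D M).N2 z).ncard : ℝ) ≤ ((D.N2 z).ncard : ℝ) := by exact_mod_cast h4
    exact (mul_le_mul_of_nonneg_left h3' hlam).trans (hz.trans h4')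

private lemma main_ind {lam : ℝ} (hlam : 0 ≤ lam)
    (hred : ∀ (V : Type) [Finite V] [Nonempty V] (D : OGraph V), D.Reduced → D.Good lam) (n : ℕ) :
    ∀ (V : Type) [Finite V] [Nonempty V] (D : OGraph V), sz D = n → D.Good lam := by
  induction n using Nat.strong_induction_on with
  | _ n ih =>
    intro V _ _ D hn
    by_cases h1 : ∀ u v, Relation.ReflTransGen D.A u v
    · by_cases h2 : ∀ M : Set V, D.IsModule M → M ≠ Set.univ → ∀ x ∈ M, ∀ y ∈ M, ¬ D.A x y
      · exact hred V D ⟨h1, h2⟩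
      · push Not at h2
        obtain ⟨M, hM, hMu, x, hx, y, hy, hxy⟩ := h2
        have : Nonempty M := ⟨⟨x, hx⟩⟩
        exact good_module hlam D hM
          (ih _ (hn ▸ sz_ind D hMu) M (ind D M) rfl)
          (ih _ (hn ▸ sz_del D hx hy hxy) V (del D M) rfl)
    · push Not at h1
      obtain ⟨u, v, huv⟩ := h1
      let S : Set V := {x | Relation.ReflTransGen D.A u x}
      have hSu : S ≠ Set.univ := by
        intro h
        have : v ∈ S := by rw [h]; exact Set.mem_univ v
        exact huv this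
      have : Nonempty S := ⟨⟨u, Relation.ReflTransGen.refl⟩⟩
      exact good_closed hlam D (S := S) (fun a ha b hab => Relation.ReflTransGen.tail ha hab)
        (ih _ (hn ▸ sz_ind D hSu) S (ind D S) rfl)

/-- For every `lam ≥ 0` (`lam = 1` is Seymour's conjecture), every nonempty finite oriented graph
has a vertex with `lam * |N1 v| ≤ |N2 v|` if and only if this holds for the strongly connected
oriented graphs in which every module different from the vertex set is independent. -/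
theorem _root_.Vale.Agent.Results.P038.PrimeReduction.result (lam : ℝ) (hlam : 0 ≤ lam) :
    (∀ (V : Type) [Finite V] [Nonempty V] (D : OGraph V), D.Good lam) ↔
      ∀ (V : Type) [Finite V] [Nonempty V] (D : OGraph V), D.Reduced → D.Good lam :=
  ⟨fun h V _ _ D _ => h V D, fun h V _ _ D => main_ind hlam h (sz D) V D rfl⟩

end Vale.Agent.P038
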