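import Mathlib

/-!
# P038: Seymour's second neighbourhood conjecture when arcs lie in few transitive triangles

If `v` is not a Seymour vertex and `v → w`, `v → w'`, then the sets `N₁(w) \ N₁(v)` and `N₁(w') \ N₁(v)` lie in
`N₂(v)`, so they intersect, which bounds the number of common out-neighbours of `w` and `w'` from below. Sum over all
transitive triangles.
-/

namespace Vale.Agent.Results.P038.RegularRatio

variable {V : Type} [Fintype V] [DecidableEq V]

/-- An oriented graph: no loops and no pair of opposite arcs. -/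
def Oriented (A : V → V → Prop) : Prop := ∀ u v, A u v → ¬ A v u

/-- The out-neighbours of `v`. -/
def N1 (A : V → V → Prop) [DecidableRel A] (v : V) : Finset V :=
  Finset.univ.filter fun u => A v u

/-- The vertices at directed distance exactly two from `v`. -/
def N2 (A : V → V → Prop) [DecidableRel A] (v : V) : Finset V :=
  Finset.univ.filter fun w => w ≠ v ∧ ¬ A v w ∧ ∃ u, A v u ∧ A u w

/-- The third vertices of the transitive triangles which contain the arc `x → y`. -/
def tri (A : V → V → Prop) [DecidableRel A] (x y : V) : Finset V :=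
  Finset.univ.filter fun z => (A x z ∧ A y z) ∨ (A x z ∧ A z y) ∨ (A z x ∧ A z y)

variable {A : V → V → Prop} [DecidableRel A]

private theorem pair_bound (hA : Oriented A) {v w w' : V} (h1 : A v w) (h2 : A v w') :
    (N1 A w).card + (N1 A w').card + (N1 A v ∩ N1 A w ∩ N1 A w').card ≤ (N2 A v).card +
      (N1 A v ∩ N1 A w).card + (N1 A v ∩ N1 A w').card + (N1 A w ∩ N1 A w').card := by
  have hsub : ∀ {y}, A v y → N1 A y \ N1 A v ⊆ N2 A v := by
    intro y hy x hx
    simp only [N1, N2, Finset.mem_sdiff, Finset.mem_filter, Finset.mem_univ, true_and] at hx ⊢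
    refine ⟨?_, hx.2, y, hy, hx.1⟩
    rintro rfl
    exact hA _ _ hy hx.1
  have hc : ∀ y, (N1 A y).card = (N1 A y \ N1 A v).card + (N1 A v ∩ N1 A y).card := by
    intro y
    rw [Finset.inter_comm]
    exact (Finset.card_sdiff_add_card_inter _ _).symm
  have hu := Finset.card_union_add_card_inter (N1 A w \ N1 A v) (N1 A w' \ N1 A v)
  have h3 : ((N1 A w \ N1 A v) ∪ (N1 A w' \ N1 A v)).card ≤ (N2 A v).card :=
    Finset.card_le_card (Finset.union_subset (hsub h1) (hsub h2))
  have h4 : ((N1 A w \ N1 A v) ∩ (N1 A w' \ N1 A v)).card + (N1 A v ∩ N1 A w ∩ N1 A w').card ≤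
      (N1 A w ∩ N1 A w').card := by
    rw [← Finset.card_union_of_disjoint]
    · refine Finset.card_le_card fun x hx => ?_
      simp only [Finset.mem_union, Finset.mem_inter, Finset.mem_sdiff] at hx ⊢
      tauto
    · rw [Finset.disjoint_left]
      intro x hx hx2
      simp only [Finset.mem_inter, Finset.mem_sdiff] at hx hx2
      tauto
  have h5 := hc w
  have h6 := hc w'
  omega

private theorem one_bound (hA : Oriented A) {v w : V} (h1 : A v w) :
    (N1 A w).card ≤ (N2 A v).card + (N1 A v ∩ N1 A w).card := by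
  have hsub : N1 A w \ N1 A v ⊆ N2 A v := by
    intro x hx
    simp only [N1, N2, Finset.mem_sdiff, Finset.mem_filter, Finset.mem_univ, true_and] at hx ⊢
    refine ⟨?_, hx.2, w, h1, hx.1⟩
    rintro rfl
    exact hA _ _ h1 hx.1
  have h2 := Finset.card_sdiff_add_card_inter (N1 A w) (N1 A v)
  rw [Finset.inter_comm] at h2
  have h3 := Finset.card_le_card hsub
  omega

/-- indicator of an arc -/
private def ar (A : V → V → Prop) [DecidableRel A] (x y : V) : ℕ := if A x y then 1 else 0

private theorem card_c (x y : V) : (N1 A x ∩ N1 A y).card = ∑ z, ar A x z * ar A y z := by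
  have h : N1 A x ∩ N1 A y = Finset.univ.filter fun z => A x z ∧ A y z := by
    ext z
    simp [N1]
  rw [h, Finset.card_filter]
  refine Finset.sum_congr rfl fun z _ => ?_
  unfold ar
  by_cases h1 : A x z <;> by_cases h2 : A y z <;> simp [h1, h2]

omit [DecidableEq V] in
private theorem card_tri (hA : Oriented A) {x y : V} :
    (∑ z, ar A x z * ar A y z) + (∑ z, ar A x z * ar A z y) + (∑ z, ar A z x * ar A z y) =
      (tri A x y).card := by
  unfold tri
  rw [Finset.card_filter, ← Finset.sum_add_distrib, ← Finset.sum_add_distrib]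
  refine Finset.sum_congr rfl fun z _ => ?_
  unfold ar
  by_cases h1 : A x z
  · have h2 : ¬ A z x := hA _ _ h1
    by_cases h3 : A y z
    · have h4 : ¬ A z y := hA _ _ h3
      simp [h1, h2, h3, h4]
    · by_cases h4 : A z y <;> simp [h1, h2, h3, h4]
  · by_cases h2 : A z x
    · by_cases h4 : A z y <;> simp [h1, h2, h4]
    · simp [h1, h2]

/-- the global theorem -/
private theorem global (hA : Oriented A) (t : ℕ)
    (ht : ∀ x y, A x y → (tri A x y).card ≤ t)
    (hd : ∀ v w w', A v w → A v w' → A w w' → t + 1 ≤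
      (N1 A v ∩ N1 A w).card + (N1 A v ∩ N1 A w').card + (N1 A w ∩ N1 A w').card)
    {v w : V} (hvw : A v w) : (N1 A v ∩ N1 A w).card = 0 := by
  set a := ar A with ha
  set c : V → V → ℕ := fun x y => ∑ z, a x z * a y z with hc
  have hcc : ∀ x y, (N1 A x ∩ N1 A y).card = c x y := card_c
  have ha1 : ∀ {x y}, A x y → a x y = 1 := fun h => by rw [ha]; simp [ar, h]
  have ha0 : ∀ {x y}, ¬ A x y → a x y = 0 := fun h => by rw [ha]; simp [ar, h]
  set T3 : ℕ := ∑ v, ∑ w, ∑ w', a v w * a v w' * a w w' with hT
  have hTc : T3 = ∑ x, ∑ y, a x y * c x y := by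
    rw [hT]
    refine Finset.sum_congr rfl fun v _ => Finset.sum_congr rfl fun w _ => ?_
    rw [hc]
    simp only
    rw [Finset.mul_sum]
    exact Finset.sum_congr rfl fun z _ => by ring
  have hlow : (t + 1) * T3 ≤
      ∑ v, ∑ w, ∑ w', a v w * a v w' * a w w' * (c v w + c v w' + c w w') := by
    rw [hT, Finset.mul_sum]
    refine Finset.sum_le_sum fun v _ => ?_
    rw [Finset.mul_sum]
    refine Finset.sum_le_sum fun w _ => ?_
    rw [Finset.mul_sum]
    refine Finset.sum_le_sum fun w' _ => ?_
    by_cases h1 : A v w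
    · by_cases h2 : A v w'
      · by_cases h3 : A w w'
        · rw [ha1 h1, ha1 h2, ha1 h3]
          have h5 := hd v w w' h1 h2 h3
          rw [hcc, hcc, hcc] at h5
          omega
        · rw [ha0 h3]; simp
      · rw [ha0 h2]; simp
    · rw [ha0 h1]; simp
  have hup : ∑ v, ∑ w, ∑ w', a v w * a v w' * a w w' * (c v w + c v w' + c w w') ≤ t * T3 := by
    have s1 : ∑ v, ∑ w, ∑ w', a v w * a v w' * a w w' * c v w =
        ∑ x, ∑ y, a x y * c x y * ∑ z, a x z * a y z := by
      refine Finset.sum_congr rfl fun v _ => Finset.sum_congr rfl fun w _ => ?_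
      rw [Finset.mul_sum]
      exact Finset.sum_congr rfl fun z _ => by ring
    have s2 : ∑ v, ∑ w, ∑ w', a v w * a v w' * a w w' * c v w' =
        ∑ x, ∑ y, a x y * c x y * ∑ z, a x z * a z y := by
      refine Finset.sum_congr rfl fun v _ => ?_
      rw [Finset.sum_comm]
      refine Finset.sum_congr rfl fun w' _ => ?_
      rw [Finset.mul_sum]
      exact Finset.sum_congr rfl fun z _ => by ring
    have s3 : ∑ v, ∑ w, ∑ w', a v w * a v w' * a w w' * c w w' =
        ∑ x, ∑ y, a x y * c x y * ∑ z, a z x * a z y := by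
      rw [Finset.sum_comm]
      refine Finset.sum_congr rfl fun w _ => ?_
      rw [Finset.sum_comm]
      refine Finset.sum_congr rfl fun w' _ => ?_
      rw [Finset.mul_sum]
      exact Finset.sum_congr rfl fun z _ => by ring
    have s4 : ∑ v, ∑ w, ∑ w', a v w * a v w' * a w w' * (c v w + c v w' + c w w') =
        (∑ v, ∑ w, ∑ w', a v w * a v w' * a w w' * c v w) +
        (∑ v, ∑ w, ∑ w', a v w * a v w' * a w w' * c v w') +
        ∑ v, ∑ w, ∑ w', a v w * a v w' * a w w' * c w w' := by
      simp only [mul_add, Finset.sum_add_distrib]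
    rw [s4, s1, s2, s3, hTc, Finset.mul_sum, ← Finset.sum_add_distrib, ← Finset.sum_add_distrib]
    refine Finset.sum_le_sum fun x _ => ?_
    rw [Finset.mul_sum, ← Finset.sum_add_distrib, ← Finset.sum_add_distrib]
    refine Finset.sum_le_sum fun y _ => ?_
    by_cases h : A x y
    · have h1 := card_tri hA (x := x) (y := y)
      have h2 := ht x y h
      rw [← h1] at h2
      rw [← mul_add, ← mul_add, mul_comm t]
      exact Nat.mul_le_mul_left _ h2
    · rw [ha0 h]; simp
  have hz : T3 = 0 := by
    have h1 := hlow.trans hup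
    have h2 : (t + 1) * T3 = t * T3 + T3 := by ring
    omega
  rw [hTc] at hz
  have h3 := (Finset.sum_eq_zero_iff.1 hz) v (Finset.mem_univ _)
  have h4 := (Finset.sum_eq_zero_iff.1 h3) w (Finset.mem_univ _)
  rw [ha1 hvw, one_mul] at h4
  rw [hcc]
  exact h4

/-- Let `A` be the arc relation of an oriented graph on a finite nonempty vertex set in which all outdegrees are `d`,
every arc lies in at most `t` transitive triangles, and the three vertices of every transitive triangle have at least
`q` common out-neighbours. Then some vertex `v` satisfies `|N₂⁺(v)| ≥ min (d, 2d + q - t)`. -/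
theorem result (V : Type) [Fintype V] [DecidableEq V] [Nonempty V] (A : V → V → Prop)
    [DecidableRel A] (hA : Oriented A) (d t q : ℕ) (hd : ∀ v, (N1 A v).card = d)
    (ht : ∀ x y, A x y → (tri A x y).card ≤ t)
    (hq : ∀ v w w', A v w → A v w' → A w w' → q ≤ (N1 A v ∩ N1 A w ∩ N1 A w').card) :
    ∃ v, min d (2 * d + q - t) ≤ (N2 A v).card := by
  by_contra hcon
  push Not at hcon
  have hc : ∀ v, (N2 A v).card < d ∧ (N2 A v).card < 2 * d + q - t := fun v =>
    lt_min_iff.1 (hcon v)
  obtain ⟨v⟩ := (inferInstance : Nonempty V)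
  have h0 := hc v
  obtain ⟨w, hw⟩ : (N1 A v).Nonempty := Finset.card_pos.1 (by rw [hd]; omega)
  have hw' : A v w := by simpa [N1] using hw
  have h1 := one_bound hA hw'
  rw [hd] at h1
  have h2 := global hA t ht (fun v w w' a1 a2 a3 => by
    have h3 := pair_bound hA a1 a2
    rw [hd, hd] at h3
    have h4 := hq v w w' a1 a2 a3
    have h5 := hc v
    omega) hw'
  omega

end Vale.Agent.Results.P038.RegularRatio
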