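import Mathlib

/-!
# P038: the weighted second neighbourhood property is closed under substitution
-/

namespace Vale.Agent.P038S

/-- An oriented graph: no loops, no pair of opposite arcs. -/
structure OGraph (V : Type) where
  A : V → V → Prop
  asymm : ∀ u v, A u v → ¬ A v u

/-- The out-neighbourhood. -/
def OGraph.N1 {V : Type} (D : OGraph V) (v : V) : Set V := {u | D.A v u}

/-- The second out-neighbourhood. -/
def OGraph.N2 {V : Type} (D : OGraph V) (v : V) : Set V :=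
  {w | w ≠ v ∧ ¬ D.A v w ∧ ∃ u, D.A v u ∧ D.A u w}

/-- The total weight of a set. -/
noncomputable def wt {V : Type} (w : V → ℝ) (S : Set V) : ℝ := ∑ᶠ v ∈ S, w v

/-- For all nonnegative vertex weights some vertex `v` has `w (N1 v) ≤ w (N2 v)`. -/
def OGraph.WGood {V : Type} (D : OGraph V) : Prop :=
  ∀ w : V → ℝ, (∀ v, 0 ≤ w v) → ∃ v, wt w (D.N1 v) ≤ wt w (D.N2 v)

/-- Substitution of the graphs `H i` for the vertices `i` of `Q`. -/
def subst {I : Type} {W : I → Type} (Q : OGraph I) (H : ∀ i, OGraph (W i)) :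
    OGraph (Σ i, W i) where
  A p q := Q.A p.1 q.1 ∨ ∃ h : p.1 = q.1, (H q.1).A (h ▸ p.2) q.2
  asymm := by
    rintro ⟨i, x⟩ ⟨j, y⟩ (h | ⟨h, h'⟩) (k | ⟨k, k'⟩)
    · exact Q.asymm _ _ h k
    · simp only at k
      subst k
      exact Q.asymm _ _ h h
    · simp only at h
      subst h
      exact Q.asymm _ _ k k
    · simp only at h
      subst h
      exact (H i).asymm _ _ h' k'

/-- The directed cycle. -/
def cyc (n : ℕ) (hn : 3 ≤ n) : OGraph (ZMod n) where
  A i j := j = i + 1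
  asymm := by
    rintro i j rfl h
    have h2 : ((2 : ℕ) : ZMod n) = 0 := by
      have : i + 1 + 1 = i := h.symm
      have h3 : i + 1 + 1 - i = 0 := by rw [this, sub_self]
      rw [← h3]; push_cast; ring
    rw [ZMod.natCast_eq_zero_iff] at h2
    exact absurd (Nat.le_of_dvd (by norm_num) h2) (by omega)

private lemma wt_mono {V : Type} [Finite V] {w : V → ℝ} (hw : ∀ v, 0 ≤ w v) {S T : Set V}
    (h : S ⊆ T) : wt w S ≤ wt w T := by
  unfold wt
  rw [finsum_mem_eq_finite_toFinset_sum _ (Set.toFinite S),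
    finsum_mem_eq_finite_toFinset_sum _ (Set.toFinite T)]
  exact Finset.sum_le_sum_of_subset_of_nonneg (by simpa using h) fun v _ _ => hw v

private lemma wt_pieces {I : Type} {W : I → Type} [Finite I] [∀ i, Finite (W i)]
    (w : (Σ i, W i) → ℝ) (i : I) (S : Set I) (hi : i ∉ S) (T : Set (W i)) :
    wt w ({p | p.1 ∈ S} ∪ Sigma.mk i '' T) =
      wt (fun j => wt (fun y => w ⟨j, y⟩) Set.univ) S + wt (fun y => w ⟨i, y⟩) T := by
  classical
  have : Fintype I := Fintype.ofFinite I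
  have : ∀ i, Fintype (W i) := fun i => Fintype.ofFinite (W i)
  unfold wt
  rw [finsum_mem_union (by
      rw [Set.disjoint_left]
      rintro _ hp ⟨y, _, rfl⟩
      exact hi hp) (Set.toFinite _) (Set.toFinite _),
    finsum_mem_image (sigma_mk_injective.injOn)]
  congr 1
  rw [finsum_mem_eq_finite_toFinset_sum _ (Set.toFinite _),
    finsum_mem_eq_finite_toFinset_sum _ (Set.toFinite _)]
  have h1 : (Set.toFinite {p : Σ i, W i | p.1 ∈ S}).toFinset =
      (Set.toFinite S).toFinset.sigma fun _ => Finset.univ := by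
    ext p
    simp
  rw [h1, Finset.sum_sigma]
  refine Finset.sum_congr rfl fun j _ => ?_
  simp [finsum_eq_sum_of_fintype]

private lemma subst_good {I : Type} {W : I → Type} [Finite I] [∀ i, Finite (W i)]
    [∀ i, Nonempty (W i)] (Q : OGraph I) (H : ∀ i, OGraph (W i)) (hQ : Q.WGood) (hH : ∀ i, (H i).WGood) :
    (subst Q H).WGood := by
  intro w hw
  obtain ⟨i, hi⟩ := hQ (fun j => wt (fun y => w ⟨j, y⟩) Set.univ) (fun j => by
    unfold wt
    exact finsum_nonneg fun y => finsum_nonneg fun _ => hw _)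
  obtain ⟨x, hx⟩ := hH i (fun y => w ⟨i, y⟩) (fun y => hw _)
  refine ⟨⟨i, x⟩, ?_⟩
  have h1 : (subst Q H).N1 ⟨i, x⟩ ⊆ {p | p.1 ∈ Q.N1 i} ∪ Sigma.mk i '' (H i).N1 x := by
    rintro ⟨j, y⟩ (h | ⟨h, h'⟩)
    · exact Or.inl h
    · simp only at h
      subst h
      exact Or.inr ⟨y, h', rfl⟩
  have h2 : {p | p.1 ∈ Q.N2 i} ∪ Sigma.mk i '' (H i).N2 x ⊆ (subst Q H).N2 ⟨i, x⟩ := by
    rintro p (⟨k1, k2, u, k3, k4⟩ | ⟨y, ⟨k1, k2, u, k3, k4⟩, rfl⟩)
    · obtain ⟨j, y⟩ := p
      obtain ⟨z⟩ : Nonempty (W u) := inferInstance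
      refine ⟨fun h => k1 (congrArg Sigma.fst h), ?_, ⟨u, z⟩, Or.inl k3, Or.inl k4⟩
      rintro (h | ⟨h, _⟩)
      · exact k2 h
      · exact k1 h.symm
    · refine ⟨fun h => k1 (sigma_mk_injective h), ?_, ⟨i, u⟩, Or.inr ⟨rfl, k3⟩, Or.inr ⟨rfl, k4⟩⟩
      rintro (h | ⟨h, h'⟩)
      · exact Q.asymm _ _ h h
      · exact k2 h'
  have h3 := wt_mono hw h1
  have h4 := wt_mono hw h2
  have h5 := wt_pieces w i (Q.N1 i) (fun h => Q.asymm i i h h) ((H i).N1 x)
  have h6 := wt_pieces w i (Q.N2 i) (fun h => h.1 rfl) ((H i).N2 x)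
  linarith

private lemma cyc_good (n : ℕ) (hn : 3 ≤ n) : (cyc n hn).WGood := by
  have : NeZero n := ⟨by omega⟩
  intro w hw
  obtain ⟨m, hm⟩ := Finite.exists_min w
  refine ⟨m - 1, ?_⟩
  have h1 : (cyc n hn).N1 (m - 1) = {m} := by
    ext u
    simp [OGraph.N1, cyc]
  have h2 : {m + 1} ⊆ (cyc n hn).N2 (m - 1) := by
    rintro _ rfl
    have h3 : ∀ k : ℕ, 0 < k → k < n → ((k : ℕ) : ZMod n) ≠ 0 := by
      intro k hk hkn h
      rw [ZMod.natCast_eq_zero_iff] at h
      exact absurd (Nat.le_of_dvd hk h) (by omega)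
    refine ⟨?_, ?_, m, ?_, rfl⟩
    · intro h
      apply h3 2 (by norm_num) (by omega)
      have h4 : m + 1 - (m - 1) = 0 := by rw [h, sub_self]
      rw [← h4]; push_cast; ring
    · intro h
      have h5 : m + 1 = m - 1 + 1 := h
      apply h3 1 (by norm_num) (by omega)
      have h4 : m + 1 - (m - 1 + 1) = 0 := by rw [h5, sub_self]
      rw [← h4]; push_cast; ring
    · show m = m - 1 + 1
      ring
  rw [h1]
  refine le_trans ?_ (wt_mono hw h2)
  unfold wt
  simpa using hm (m + 1)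

private lemma sink_good {V : Type} [Finite V] (D : OGraph V) (h : ∃ v, ∀ u, ¬ D.A v u) :
    D.WGood := by
  intro w hw
  obtain ⟨v, hv⟩ := h
  refine ⟨v, wt_mono hw fun u hu => absurd hu (hv u)⟩

private lemma good_card {V : Type} [Finite V] (D : OGraph V) (h : D.WGood) :
    ∃ v, (D.N1 v).ncard ≤ (D.N2 v).ncard := by
  obtain ⟨v, hv⟩ := h (fun _ => 1) (fun _ => zero_le_one)
  refine ⟨v, ?_⟩
  have h1 : ∀ S : Set V, wt (fun _ => (1 : ℝ)) S = (S.ncard : ℝ) := by
    intro S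
    unfold wt
    rw [finsum_mem_eq_finite_toFinset_sum _ (Set.toFinite S), Finset.sum_const, nsmul_eq_mul,
      mul_one, Set.ncard_eq_toFinset_card S (Set.toFinite S)]
  rw [h1, h1] at hv
  exact_mod_cast hv

/-- (1) The weighted second neighbourhood property is closed under substitution. (2) Directed cycles
and (3) graphs with a sink have it. (4) It implies the property of Seymour's conjecture. -/
theorem _root_.Vale.Agent.Results.P038.Substitution.result :
    (∀ (I : Type) (W : I → Type) [Finite I] [∀ i, Finite (W i)] [∀ i, Nonempty (W i)]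
        (Q : OGraph I) (H : ∀ i, OGraph (W i)), Q.WGood → (∀ i, (H i).WGood) →
        (subst Q H).WGood) ∧
      (∀ (n : ℕ) (hn : 3 ≤ n), (cyc n hn).WGood) ∧
      (∀ (V : Type) [Finite V] (D : OGraph V), (∃ v, ∀ u, ¬ D.A v u) → D.WGood) ∧
      (∀ (V : Type) [Finite V] (D : OGraph V), D.WGood →
        ∃ v, (D.N1 v).ncard ≤ (D.N2 v).ncard) :=
  ⟨fun _ _ _ _ _ Q H hQ hH => subst_good Q H hQ hH, cyc_good, fun _ _ D h => sink_good D h,
    fun _ _ D h => good_card D h⟩

end Vale.Agent.P038S
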